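import Mathlib

/-!
# P300 / PROJ, block JETS: the node chart of `M_{0,5}-bar`, the weight, admissible changes of node

Cubical coordinates `w = (u, v)`: the five points are `0, uv, v, 1, ∞`. `Om` is the node chart of
`M_{0,5}-bar`, `V = M_{0,5}` the complement of the boundary in it, `R` the star-shaped part.
`phi` is the same function in all the node charts; a change of node `g : V → V` changes it by
`log |m|²`, `m` holomorphic without zeros (`Adm`).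
-/

set_option autoImplicit false

open Set

namespace Vale.Agent.P300.H266

/-- The node chart of `M_{0,5}-bar`. -/
def Om : Set (Fin 2 → ℂ) := {w | w 0 ≠ 1 ∧ w 1 ≠ 1 ∧ w 0 * w 1 ≠ 1}

/-- `M_{0,5}` in the node chart. -/
def V : Set (Fin 2 → ℂ) := {w | w 0 ≠ 0 ∧ w 1 ≠ 0 ∧ w 0 ≠ 1 ∧ w 1 ≠ 1 ∧ w 0 * w 1 ≠ 1}

/-- The closed half line `[1, ∞)` in `ℂ`. -/
def Ray : Set ℂ := {z | 1 ≤ z.re ∧ z.im = 0}

/-- The star-shaped part of the node chart. -/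
def R : Set (Fin 2 → ℂ) := {w | w 0 ∉ Ray ∧ w 1 ∉ Ray ∧ w 0 * w 1 ∉ Ray}

/-- The five cross ratios, in the node chart. -/
noncomputable def cr (j : Fin 5) (w : Fin 2 → ℂ) : ℂ :=
  ![w 0, w 1, w 0 * w 1, (1 - w 0) / (1 - w 0 * w 1), (1 - w 1) / (1 - w 0 * w 1)] j

/-- The weight. -/
noncomputable def phi (w : Fin 2 → ℂ) : ℝ :=
  ∑ j, Real.log (1 + ‖cr j w‖ ^ 2 + ‖1 - cr j w‖ ^ 2)

/-- The branched covering `(r, t) ↦ (r^p, t^q)`. -/
def pw (p q : ℕ) (x : Fin 2 → ℂ) : Fin 2 → ℂ := ![x 0 ^ p, x 1 ^ q]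

/-- An admissible change of node: a biholomorphic map `g : V → V`, with inverse `g'`, with
`exp (phi (g w)) |m w|² = exp (phi w)`, `m` holomorphic without zeros. -/
structure Adm (g g' : (Fin 2 → ℂ) → (Fin 2 → ℂ)) (m : (Fin 2 → ℂ) → ℂ) : Prop where
  maps : ∀ w ∈ V, g w ∈ V
  maps' : ∀ w ∈ V, g' w ∈ V
  diff : DifferentiableOn ℂ g V
  diff' : DifferentiableOn ℂ g' V
  left : ∀ w ∈ V, g' (g w) = w
  right : ∀ w ∈ V, g (g' w) = w
  mdiff : DifferentiableOn ℂ m V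
  mne : ∀ w ∈ V, m w ≠ 0
  wt : ∀ w ∈ V, Real.exp (phi (g w)) * ‖m w‖ ^ 2 = Real.exp (phi w)

theorem cr_zero (w : Fin 2 → ℂ) : cr 0 w = w 0 := rfl
theorem cr_one (w : Fin 2 → ℂ) : cr 1 w = w 1 := rfl
theorem cr_two (w : Fin 2 → ℂ) : cr 2 w = w 0 * w 1 := rfl
theorem cr_three (w : Fin 2 → ℂ) : cr 3 w = (1 - w 0) / (1 - w 0 * w 1) := rfl
theorem cr_four (w : Fin 2 → ℂ) : cr 4 w = (1 - w 1) / (1 - w 0 * w 1) := rfl

theorem isOpen_Om : IsOpen Om := by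
  have h : Om = ((fun w : Fin 2 → ℂ => w 0) ⁻¹' {1}ᶜ ∩ (fun w : Fin 2 → ℂ => w 1) ⁻¹' {1}ᶜ) ∩
      (fun w : Fin 2 → ℂ => w 0 * w 1) ⁻¹' {1}ᶜ := by
    ext w; simp [Om, and_assoc]
  rw [h]
  refine (IsOpen.inter ?_ ?_).inter ?_
  · exact isOpen_compl_singleton.preimage (continuous_apply 0)
  · exact isOpen_compl_singleton.preimage (continuous_apply 1)
  · exact isOpen_compl_singleton.preimage ((continuous_apply 0).mul (continuous_apply 1))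

theorem V_eq : V = Om ∩ {w | w 0 * w 1 ≠ 0} := by
  ext w
  simp only [V, Om, mem_inter_iff, mem_ofPred_eq, mul_ne_zero_iff]
  tauto

theorem isOpen_V : IsOpen V := by
  rw [V_eq]
  exact isOpen_Om.inter (isOpen_compl_singleton.preimage ((continuous_apply 0).mul
    (continuous_apply 1)))

theorem V_sub : V ⊆ Om := fun _ h => ⟨h.2.2.1, h.2.2.2.1, h.2.2.2.2⟩

theorem R_sub : R ⊆ Om := by
  intro w h
  refine ⟨fun h0 => h.1 ?_, fun h0 => h.2.1 ?_, fun h0 => h.2.2 ?_⟩ <;> simp [Ray, h0]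

theorem isClosed_Ray : IsClosed Ray := by
  have h : Ray = Complex.re ⁻¹' (Set.Ici 1) ∩ Complex.im ⁻¹' {0} := by
    ext z; simp [Ray]
  rw [h]
  exact (isClosed_Ici.preimage Complex.continuous_re).inter
    (isClosed_singleton.preimage Complex.continuous_im)

theorem isOpen_R : IsOpen R := by
  have h : R = ((fun w : Fin 2 → ℂ => w 0) ⁻¹' Rayᶜ ∩ (fun w : Fin 2 → ℂ => w 1) ⁻¹' Rayᶜ) ∩
      (fun w : Fin 2 → ℂ => w 0 * w 1) ⁻¹' Rayᶜ := by
    ext w; simp [R, and_assoc]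
  rw [h]
  refine (IsOpen.inter ?_ ?_).inter ?_
  · exact isClosed_Ray.isOpen_compl.preimage (continuous_apply 0)
  · exact isClosed_Ray.isOpen_compl.preimage (continuous_apply 1)
  · exact isClosed_Ray.isOpen_compl.preimage ((continuous_apply 0).mul (continuous_apply 1))

theorem phi_nonneg (w : Fin 2 → ℂ) : 0 ≤ phi w :=
  Finset.sum_nonneg fun j _ => Real.log_nonneg (by
    have h1 := sq_nonneg (‖cr j w‖)
    have h2 := sq_nonneg (‖1 - cr j w‖)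
    linarith)

theorem exp_phi (w : Fin 2 → ℂ) :
    Real.exp (phi w) = ∏ j, (1 + ‖cr j w‖ ^ 2 + ‖1 - cr j w‖ ^ 2) := by
  rw [phi, Real.exp_sum]
  refine Finset.prod_congr rfl fun j _ => Real.exp_log (by positivity)

/-- The growth of the weight. -/
theorem le_exp_phi (w : Fin 2 → ℂ) : 1 + ∑ j, ‖w j‖ ^ 2 ≤ Real.exp (phi w) := by
  rw [exp_phi]
  have h1 : ∀ j, 1 ≤ 1 + ‖cr j w‖ ^ 2 + ‖1 - cr j w‖ ^ 2 := fun j => by
    nlinarith [sq_nonneg ‖cr j w‖, sq_nonneg ‖1 - cr j w‖]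
  simp only [Fin.prod_univ_five, Fin.sum_univ_two]
  have h0 := h1 0
  have h2 := h1 1
  have h3 := h1 2
  have h4 := h1 3
  have h5 := h1 4
  have a0 : 1 + ‖w 0‖ ^ 2 ≤ 1 + ‖cr 0 w‖ ^ 2 + ‖1 - cr 0 w‖ ^ 2 := by
    rw [cr_zero]; nlinarith [sq_nonneg ‖1 - w 0‖]
  have a1 : 1 + ‖w 1‖ ^ 2 ≤ 1 + ‖cr 1 w‖ ^ 2 + ‖1 - cr 1 w‖ ^ 2 := by
    rw [cr_one]; nlinarith [sq_nonneg ‖1 - w 1‖]
  calc 1 + (‖w 0‖ ^ 2 + ‖w 1‖ ^ 2) ≤ (1 + ‖w 0‖ ^ 2) * (1 + ‖w 1‖ ^ 2) := by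
        nlinarith [mul_nonneg (sq_nonneg ‖w 0‖) (sq_nonneg ‖w 1‖)]
    _ ≤ (1 + ‖cr 0 w‖ ^ 2 + ‖1 - cr 0 w‖ ^ 2) * (1 + ‖cr 1 w‖ ^ 2 + ‖1 - cr 1 w‖ ^ 2) := by
        gcongr
    _ ≤ (1 + ‖cr 0 w‖ ^ 2 + ‖1 - cr 0 w‖ ^ 2) * (1 + ‖cr 1 w‖ ^ 2 + ‖1 - cr 1 w‖ ^ 2) *
        (1 + ‖cr 2 w‖ ^ 2 + ‖1 - cr 2 w‖ ^ 2) * (1 + ‖cr 3 w‖ ^ 2 + ‖1 - cr 3 w‖ ^ 2) *
        (1 + ‖cr 4 w‖ ^ 2 + ‖1 - cr 4 w‖ ^ 2) := by
        refine le_trans ?_ (le_mul_of_one_le_right (by positivity) h5)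
        refine le_trans ?_ (le_mul_of_one_le_right (by positivity) h4)
        exact le_mul_of_one_le_right (by positivity) h3

namespace Adm

variable {g g' h h' : (Fin 2 → ℂ) → (Fin 2 → ℂ)} {m n : (Fin 2 → ℂ) → ℂ}

theorem refl : Adm id id (fun _ => 1) where
  maps := fun _ h => h
  maps' := fun _ h => h
  diff := differentiableOn_id
  diff' := differentiableOn_id
  left := fun _ _ => rfl
  right := fun _ _ => rfl
  mdiff := differentiableOn_const _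
  mne := fun _ _ => one_ne_zero
  wt := fun w _ => by simp

theorem comp (hg : Adm g g' m) (hh : Adm h h' n) :
    Adm (fun w => g (h w)) (fun w => h' (g' w)) (fun w => m (h w) * n w) where
  maps := fun w hw => hg.maps _ (hh.maps w hw)
  maps' := fun w hw => hh.maps' _ (hg.maps' w hw)
  diff := hg.diff.comp hh.diff hh.maps
  diff' := hh.diff'.comp hg.diff' hg.maps'
  left := fun w hw => by rw [hg.left _ (hh.maps w hw), hh.left w hw]
  right := fun w hw => by rw [hh.right _ (hg.maps' w hw), hg.right w hw]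
  mdiff := (hg.mdiff.comp hh.diff hh.maps).mul hh.mdiff
  mne := fun w hw => mul_ne_zero (hg.mne _ (hh.maps w hw)) (hh.mne w hw)
  wt := fun w hw => by
    rw [norm_mul, mul_pow, ← mul_assoc, hg.wt _ (hh.maps w hw), hh.wt w hw]

theorem symm (hg : Adm g g' m) : Adm g' g (fun w => (m (g' w))⁻¹) where
  maps := hg.maps'
  maps' := hg.maps
  diff := hg.diff'
  diff' := hg.diff
  left := hg.right
  right := hg.left
  mdiff := (hg.mdiff.comp hg.diff' hg.maps').inv fun w hw => hg.mne _ (hg.maps' w hw)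
  mne := fun w hw => inv_ne_zero (hg.mne _ (hg.maps' w hw))
  wt := fun w hw => by
    have h1 := hg.wt (g' w) (hg.maps' w hw)
    have h2 : ‖m (g' w)‖ ^ 2 ≠ 0 := pow_ne_zero 2 (norm_ne_zero_iff.2 (hg.mne _ (hg.maps' w hw)))
    rw [hg.right w hw] at h1
    rw [norm_inv, inv_pow, ← h1, mul_assoc, mul_inv_cancel₀ h2, mul_one]

end Adm

end Vale.Agent.P300.H266
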