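import Vale.Agent.P300.H266.Model
import Vale.Agent.P300.H113.LeviF

/-!
# P300 / PROJ, block JETS: what is used from the `L²` theory

`p : E → ℂⁿ` is a finite covering of the open set `V`, by a topological space `E`. Everything is
stated in parametrised charts `κ : B → E`, no measure on `E` occurs.
-/

set_option autoImplicit false

open Set MeasureTheory Vale.Agent.P300.L2 Vale.Agent.P300.H113

open scoped ENNReal

namespace Vale.Agent.P300.H266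

variable {n : ℕ} {E : Type} [TopologicalSpace E]

/-- `p : E → V` is an `N`-sheeted covering of the open set `V ⊆ ℂⁿ`. -/
structure IsFinCov (p : E → Fin n → ℂ) (V : Set (Fin n → ℂ)) (N : ℕ) : Prop where
  isOpen : IsOpen V
  cont : Continuous p
  mem : ∀ e, p e ∈ V
  loc : ∀ z ∈ V, ∃ (W : Set (Fin n → ℂ)) (s : Fin N → (Fin n → ℂ) → E), IsOpen W ∧ z ∈ W ∧ W ⊆ V ∧
    (∀ i, ContinuousOn (s i) W) ∧ (∀ i, ∀ y ∈ W, p (s i y) = y) ∧
    (∀ y ∈ W, Function.Injective fun i => s i y) ∧ ∀ e, p e ∈ W → ∃ i, s i (p e) = e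

/-- `s` is a continuous section over the open set `W`. -/
structure IsSec (p : E → Fin n → ℂ) (V W : Set (Fin n → ℂ)) (s : (Fin n → ℂ) → E) : Prop where
  isOpen : IsOpen W
  sub : W ⊆ V
  cont : ContinuousOn s W
  sec : ∀ z ∈ W, p (s z) = z

/-- `F` is holomorphic on `E`. -/
def HoloE (p : E → Fin n → ℂ) (V : Set (Fin n → ℂ)) (F : E → ℂ) : Prop :=
  ∀ W s, IsSec p V W s → DifferentiableOn ℂ (fun z => F (s z)) W

/-- `|z - w|²`. -/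
noncomputable def vz (w z : Fin n → ℂ) : ℝ := ∑ j, ‖z j - w j‖ ^ 2

/-- `F` is holomorphic on the part of `E` over `{|z - w|² < R}`. -/
def HoloBE (p : E → Fin n → ℂ) (V : Set (Fin n → ℂ)) (w : Fin n → ℂ) (R : ℝ) (F : E → ℂ) : Prop :=
  ∀ W s, IsSec p V W s → (∀ z ∈ W, vz w z < R) → DifferentiableOn ℂ (fun z => F (s z)) W

/-- A parametrised chart `κ : B → E`. -/
structure IsChart (p : E → Fin n → ℂ) (κ : (Fin n → ℂ) → E) (B : Set (Fin n → ℂ)) : Prop where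
  isOpen : IsOpen B
  cont : ContinuousOn κ B
  inj : InjOn κ B
  holo : DifferentiableOn ℂ (fun x => p (κ x)) B

/-- The jacobian determinant of the coordinates `p` in the chart `κ`. -/
noncomputable def jac (p : E → Fin n → ℂ) (κ : (Fin n → ℂ) → E) (x : Fin n → ℂ) : ℂ :=
  (fderiv ℂ (fun x => p (κ x)) x).det

/-- **[SECL]**, the statement used by [JETS]: sections with prescribed singular behaviour, in
parametrised charts. `ρ` is an exhaustion function of `V` (`Exh V ρ C k0`). -/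
def SecL (p : E → Fin n → ℂ) (V : Set (Fin n → ℂ)) (ρ : (Fin n → ℂ) → ℝ) : Prop :=
  ∀ φ : (Fin n → ℂ) → ℝ, ContDiffOn ℝ 2 φ V → (∀ z ∈ V, 0 ≤ φ z) →
    (∀ z ∈ V, ∀ β : Fin n → ℂ, 0 ≤ leviF φ β z) →
  ∀ (w : Fin n → ℂ) (r c b : ℝ), 0 < r → 0 < c →
    (∀ z ∈ V, vz w z ≤ r → ∀ β : Fin n → ℂ, c * ∑ j, ‖β j‖ ^ 2 ≤ leviF φ β z) →
    (∀ z ∈ V, vz w z ≤ r → φ z ≤ b) →
  ∀ f : E → ℂ, HoloBE p V w (4 * r) f →
    (∃ (c : ℝ) (k : ℕ), ∀ e, vz w (p e) ≤ r → ‖f e‖ ≤ c * (1 + ρ (p e)) ^ k) →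
  ∀ (κ : (Fin n → ℂ) → E) (B : Set (Fin n → ℂ)), IsChart p κ B →
    (∀ e, vz w (p e) ≤ r → e ∉ κ '' B → f e = 0) →
    (∫⁻ x in B ∩ {x | vz w (p (κ x)) ≤ r},
      ENNReal.ofReal (‖f (κ x)‖ ^ 2 * ‖jac p κ x‖ ^ 2) < ⊤) →
  ∀ k : ℕ, ∃ F : E → ℂ, HoloE p V F ∧
    ∀ (κ : (Fin n → ℂ) → E) (B : Set (Fin n → ℂ)), IsChart p κ B →
      (∫⁻ x in B, ENNReal.ofReal (‖F (κ x)‖ ^ 2 * ‖jac p κ x‖ ^ 2 *
        (Real.exp (-φ (p (κ x))) * ((1 + vz w (p (κ x))) ^ k)⁻¹)) < ⊤) ∧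
      ∫⁻ x in B ∩ {x | vz w (p (κ x)) ≤ r / 2},
        ENNReal.ofReal (‖F (κ x) - f (κ x)‖ ^ 2 * ‖jac p κ x‖ ^ 2 *
          (vz w (p (κ x)) ^ k)⁻¹) < ⊤

end Vale.Agent.P300.H266
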