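import Vale.Agent.P300.H266.Ext
import Vale.Agent.P300.H334.F0
import Vale.Agent.P300.H113.Intp
import Vale.Agent.P300.H265.L2loc

/-!
# P300 / PROJ, block JETS: sections with prescribed jets
-/

set_option autoImplicit false

open Set Filter Topology Metric MeasureTheory Vale.Agent.P300.L2 Vale.Agent.P300.H113

open scoped ENNReal

namespace Vale.Agent.P300.H266

variable {X₀ : Type} [TopologicalSpace X₀] {pr : X₀ → Fin 2 → ℂ} {N : ℕ}

theorem Omo_eq (p q : ℕ) : H334.Omo p q = Oo p q := by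
  ext x
  simp only [H334.Omo, Oo, mem_ofPred_eq, mul_ne_zero_iff]

/-- **1-jets**: `g` holomorphic near `x`, `∫ |g|² / |pw y - pw x|⁶ < ∞` off the axes. -/
theorem jet_vanish {p q : ℕ} (hp : 0 < p) (hq : 0 < q) {x : Fin 2 → ℂ} (hx : x ∈ Of p q) {g : (Fin 2 → ℂ) → ℂ}
    (hg : DifferentiableAt ℂ g x) {r : ℝ} (hr : 0 < r)
    (hI : ∫⁻ y in Oo p q ∩ {y | vz (pw p q x) (pw p q y) ≤ r},
      ENNReal.ofReal (‖g y‖ ^ 2 * (vz (pw p q x) (pw p q y) ^ 3)⁻¹) < ⊤) :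
    g x = 0 ∧ fderiv ℂ g x = 0 := by
  obtain ⟨C, hC, δ, hδ, hvz⟩ := H327.vz_pw p q x
  have hev : ∀ᶠ y in 𝓝 x, y ∈ Of p q ∧ (pw p q y = pw p q x → y = x) := by
    filter_upwards [isOpen_Of.mem_nhds hx, isolated hp hq x] with y h1 h2 using ⟨h1, h2⟩
  obtain ⟨δ', hδ', hsub⟩ := Metric.eventually_nhds_iff_ball.1 hev
  have h1 : ∀ᶠ y in 𝓝 x, vz (pw p q x) (pw p q y) < r := by
    have h2 : ContinuousAt (fun y => vz (pw p q x) (pw p q y)) x :=
      ((continuous_vz _).comp continuous_pw).continuousAt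
    refine h2.eventually (gt_mem_nhds ?_)
    show vz (pw p q x) (pw p q x) < r
    rw [vz_self]
    exact hr
  obtain ⟨δ'', hδ'', hsub'⟩ := Metric.eventually_nhds_iff_ball.1 h1
  set ε := min δ (min δ' δ'') with hε
  have hε0 : 0 < ε := lt_min hδ (lt_min hδ' hδ'')
  -- the integral over the ball around `x`
  have h3 : ∫⁻ y in ball x ε, ‖g y‖ₑ ^ 2 * ENNReal.ofReal ((‖y - x‖ ^ 6)⁻¹) ≤
      ENNReal.ofReal (C ^ 3) * ∫⁻ y in Oo p q ∩ {y | vz (pw p q x) (pw p q y) ≤ r},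
        ENNReal.ofReal (‖g y‖ ^ 2 * (vz (pw p q x) (pw p q y) ^ 3)⁻¹) := by
    have h4 : ball x ε =ᵐ[volume] (ball x ε ∩ {y : Fin 2 → ℂ | y 0 * y 1 ≠ 0} : Set _) := by
      refine Filter.eventuallyEq_set.2 ?_
      filter_upwards [H327.ae_offAxes] with y hy
      exact ⟨fun h => ⟨h, mul_ne_zero hy.1 hy.2⟩, fun h => h.1⟩
    rw [setLIntegral_congr h4, ← lintegral_const_mul' _ _ ENNReal.ofReal_ne_top]
    have h5 : ball x ε ∩ {y : Fin 2 → ℂ | y 0 * y 1 ≠ 0} ⊆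
        Oo p q ∩ {y | vz (pw p q x) (pw p q y) ≤ r} := by
      intro y hy
      have hy1 : y ∈ ball x δ' := ball_subset_ball ((min_le_right _ _).trans (min_le_left _ _)) hy.1
      have hy2 : y ∈ ball x δ'' :=
        ball_subset_ball ((min_le_right _ _).trans (min_le_right _ _)) hy.1
      exact ⟨⟨(hsub y hy1).1, hy.2⟩, (hsub' y hy2).le⟩
    refine le_trans ?_ (lintegral_mono_set h5)
    refine setLIntegral_mono' (isOpen_ball.inter isOpen_ne).measurableSet fun y hy => ?_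
    rw [← ofReal_norm, ← ENNReal.ofReal_pow (norm_nonneg _),
      ← ENNReal.ofReal_mul (by positivity), ← ENNReal.ofReal_mul (by positivity)]
    refine ENNReal.ofReal_le_ofReal ?_
    have hyδ : y ∈ closedBall x δ :=
      ball_subset_closedBall (ball_subset_ball (min_le_left _ _) hy.1)
    have h6 := hvz y hyδ
    rcases eq_or_ne y x with hyx | hyx
    · subst hyx
      simp only [sub_self, norm_zero, vz_self]
      norm_num
    · have h7 : 0 < ‖y - x‖ := norm_pos_iff.2 (sub_ne_zero.2 hyx)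
      rcases (vz_nonneg (pw p q x) (pw p q y)).eq_or_lt with h8 | h8
      · exfalso
        have hy1 : y ∈ ball x δ' :=
          ball_subset_ball ((min_le_right _ _).trans (min_le_left _ _)) hy.1
        refine hyx ((hsub y hy1).2 ?_)
        by_contra h
        exact (vz_pos h).ne h8
      · have h9 : (‖y - x‖ ^ 6)⁻¹ ≤ C ^ 3 * (vz (pw p q x) (pw p q y) ^ 3)⁻¹ := by
          rw [← div_eq_mul_inv, le_div_iff₀ (by positivity), inv_mul_le_iff₀ (by positivity)]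
          calc vz (pw p q x) (pw p q y) ^ 3 ≤ (C * ‖y - x‖ ^ 2) ^ 3 :=
                pow_le_pow_left₀ h8.le h6 3
            _ = ‖y - x‖ ^ 6 * C ^ 3 := by ring
        calc ‖g y‖ ^ 2 * (‖y - x‖ ^ 6)⁻¹ ≤ ‖g y‖ ^ 2 * (C ^ 3 * (vz (pw p q x) (pw p q y) ^ 3)⁻¹) :=
              mul_le_mul_of_nonneg_left h9 (by positivity)
          _ = C ^ 3 * (‖g y‖ ^ 2 * (vz (pw p q x) (pw p q y) ^ 3)⁻¹) := by ring
  have h10 : ∫⁻ y in ball x ε, ‖g y‖ₑ ^ 2 * ENNReal.ofReal ((‖y - x‖ ^ 6)⁻¹) ≠ ⊤ :=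
    ne_top_of_le_ne_top (ENNReal.mul_ne_top ENNReal.ofReal_ne_top hI.ne) h3
  have h11 : ∫⁻ y in ball (0 : Fin 2 → ℂ) ε, ‖g (x + y)‖ₑ ^ 2 * ENNReal.ofReal ((‖y‖ ^ 6)⁻¹) ≠ ⊤ := by
    have h12 : ∫⁻ y in ball (0 : Fin 2 → ℂ) ε, ‖g (x + y)‖ₑ ^ 2 * ENNReal.ofReal ((‖y‖ ^ 6)⁻¹) =
        ∫⁻ y in ball x ε, ‖g y‖ₑ ^ 2 * ENNReal.ofReal ((‖y - x‖ ^ 6)⁻¹) := by
      rw [← lintegral_indicator measurableSet_ball, ← lintegral_indicator measurableSet_ball]
      have h20 := lintegral_add_left_eq_self (μ := (volume : Measure (Fin 2 → ℂ)))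
        (fun y => (ball x ε).indicator (fun y => ‖g y‖ₑ ^ 2 * ENNReal.ofReal ((‖y - x‖ ^ 6)⁻¹)) y) x
      rw [← h20]
      refine lintegral_congr fun y => ?_
      by_cases hy : y ∈ ball (0 : Fin 2 → ℂ) ε
      · have hy' : x + y ∈ ball x ε := by
          rw [mem_ball_iff_norm] at hy ⊢
          simpa using hy
        rw [indicator_of_mem hy, indicator_of_mem hy', add_sub_cancel_left]
      · have hy' : x + y ∉ ball x ε := by
          rw [mem_ball_iff_norm] at hy ⊢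
          simpa using hy
        rw [indicator_of_notMem hy, indicator_of_notMem hy']
    rw [h12]
    exact h10
  have h13 : HasFDerivAt (fun y => g (x + y)) (fderiv ℂ g x) 0 := by
    have h14 : HasFDerivAt g (fderiv ℂ g x) (x + 0) := by
      rw [add_zero]; exact hg.hasFDerivAt
    have h15 := h14.comp (f := fun y : Fin 2 → ℂ => x + y) (0 : Fin 2 → ℂ)
      ((hasFDerivAt_id (𝕜 := ℂ) (0 : Fin 2 → ℂ)).const_add x)
    rw [ContinuousLinearMap.comp_id] at h15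
    exact h15
  have h16 := H813.jet_one (n := 2) (m := 6) (by norm_num) (by norm_num) hε0 h13 h11
  simpa using h16

namespace NodeSys

/-- The function on `X₀` of a section in the frame of the node `ν`. -/
noncomputable def unfr (D : NodeSys X₀ pr) (ν : D.Nd) (F' : X₀ → ℂ) (e : X₀) : ℂ :=
  F' e / ((fderiv ℂ (D.g ν) (D.co ν e)).det * D.m ν (D.co ν e) ^ 4)

variable (D : NodeSys X₀ pr)

/-- From the frame of a node to a function on `X₀`. -/
theorem isSection_unfr [T2Space X₀] (hp : IsFinCov pr V N) (ν' : D.Nd) {F' : X₀ → ℂ}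
    (hF : HoloE (D.co ν') V F') (w : Fin 2 → ℂ)
    (hI : ∀ (κ : (Fin 2 → ℂ) → X₀) (B : Set (Fin 2 → ℂ)), IsChart (D.co ν') κ B →
      ∫⁻ x in B, ENNReal.ofReal (‖F' (κ x)‖ ^ 2 * ‖jac (D.co ν') κ x‖ ^ 2 *
        (Real.exp (-phi (D.co ν' (κ x))) * ((1 + vz w (D.co ν' (κ x))) ^ 3)⁻¹)) < ⊤) :
    D.IsSection 4 (D.unfr ν' F') :=
  H265.isSection_four hp ν' hF w hI

theorem jets [T2Space X₀] [SecondCountableTopology X₀] (hp : IsFinCov pr V N) (ν : D.Nd)
    (s₀ : D.ι ν) {x₀ : Fin 2 → ℂ} (hx₀ : x₀ ∈ D.Full ν s₀) (a : ℂ)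
    (L : (Fin 2 → ℂ) →L[ℂ] ℂ) :
    ∃ F : X₀ → ℂ, D.IsSection 4 F ∧ ∀ (s : D.ι ν) (y : Fin 2 → ℂ), y ∈ D.Full ν s →
      D.pwr ν s y = D.pwr ν s₀ x₀ → ∀ G, D.Ext ν s 4 F G →
        (s = s₀ → y = x₀ → G y = a ∧ fderiv ℂ G y = L) ∧
        (¬ (s = s₀ ∧ y = x₀) → G y = 0 ∧ fderiv ℂ G y = 0) := by
  classical
  have hcov : IsFinCov (D.co ν) V N := isFinCov hp ν
  set w : Fin 2 → ℂ := D.pwr ν s₀ x₀ with hw
  have hwR : w ∈ R := hx₀
  -- the constants
  obtain ⟨ρ, C, k0, hE, hρ0, -, -, hρa, hρb, -, -, -⟩ := exhV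
  obtain ⟨ε₁, hε₁, hε₁s, c, hc, hlev, b, hb⟩ := hphi_local (w₀ := w) (R_sub hwR).2.2
  obtain ⟨ε₂, hε₂, hε₂s⟩ := Metric.isOpen_iff.1 isOpen_R w hwR
  set ε := min ε₁ ε₂ / 2 with hεd
  have hε : 0 < ε := by positivity
  have hεε₁ : ε ≤ ε₁ := by
    have := min_le_left ε₁ ε₂
    have h0 : 0 < min ε₁ ε₂ := lt_min hε₁ hε₂
    rw [hεd]; linarith
  have hεε₂ : ε < ε₂ := by
    have := min_le_right ε₁ ε₂
    have h0 : 0 < min ε₁ ε₂ := lt_min hε₁ hε₂
    rw [hεd]; linarith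
  set r : ℝ := ε ^ 2 / 4 with hr
  have hr0 : 0 < r := by positivity
  have hnorm : ∀ z, vz w z ≤ 4 * r → ‖z - w‖ ≤ ε := by
    intro z hz
    have h1 := norm_le_vz w z
    have h2 : ‖z - w‖ ^ 2 ≤ ε ^ 2 := h1.trans (hz.trans (by rw [hr]; linarith))
    exact (sq_le_sq₀ (norm_nonneg _) hε.le).1 h2
  have hball : ∀ z, vz w z < 4 * r → z ∈ R := fun z hz =>
    hε₂s (mem_ball_iff_norm.2 ((hnorm z hz.le).trans_lt hεε₂))
  have hcl : ∀ z, vz w z ≤ r → z ∈ closedBall w ε₁ := fun z hz =>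
    mem_closedBall_iff_norm.2 ((hnorm z (by linarith)).trans hεε₁)
  -- the local datum
  obtain ⟨g0, hg0, hg0a, hg0L, hg00⟩ := exists_intp
    (finite_fiber (D.p_pos ν s₀) (D.q_pos ν s₀) w).toFinset x₀ a L
  have hθ : ContinuousOn (D.θ ν s₀) (H334.Omo (D.p ν s₀) (D.q ν s₀)) := by
    rw [Omo_eq]; exact D.cont ν s₀
  have hinj : InjOn (D.θ ν s₀) (H334.Omo (D.p ν s₀) (D.q ν s₀)) := by
    rw [Omo_eq]; exact D.inj ν s₀
  have hclosed : ∀ e, D.co ν e ∈ R →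
      e ∈ closure (D.θ ν s₀ '' H334.Omo (D.p ν s₀) (D.q ν s₀)) →
      e ∈ D.θ ν s₀ '' H334.Omo (D.p ν s₀) (D.q ν s₀) := by
    refine H334.closed_of_pieces hcov (fun s => D.p_pos ν s) (fun s => D.q_pos ν s)
      (fun s => by rw [Omo_eq]; exact D.cont ν s) (fun s => by rw [Omo_eq]; exact D.inj ν s)
      (fun s x hx => by rw [Omo_eq] at hx; exact co_θ hx) (fun s s' => ?_) (fun e he => ?_) s₀
    · by_cases h : s = s'
      · exact Or.inl (by rw [h])
      · right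
        rw [Set.disjoint_left]
        rintro e ⟨x, hx, rfl⟩ ⟨y, hy, hxy⟩
        rw [Omo_eq] at hx hy
        exact D.disj ν s s' h x hx y hy hxy.symm
    · obtain ⟨s, x, hx, hxe⟩ := D.surj ν e he
      exact ⟨s, x, by rw [Omo_eq]; exact hx, hxe⟩
  obtain ⟨f, hf1, hf2, hf3, hf4, hf5⟩ := H334.exists_f0 hcov (D.p_pos ν s₀) (D.q_pos ν s₀) hθ hinj
    (fun x hx => by rw [Omo_eq] at hx; exact co_θ hx) hclosed (g0 := g0)
    (hg0.differentiableOn) hr0 hball (ρ := ρ) (C := 1) (k := 1) (fun z _ => hρ0 z)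
    (fun z _ => ⟨by rw [norm_inv]; linarith [hρa z], by rw [norm_inv]; linarith [hρb z]⟩)
  rw [Omo_eq] at hf1 hf2 hf5
  -- the section
  have hS := Vale.Agent.P300.L2.secL hcov hE
  obtain ⟨F', hF', hF'I⟩ := hS phi
    ((hphi_contDiffOn 2).mono fun z hz => hz.2.2.2.2) (fun z _ => phi_nonneg z)
    (fun z hz β => leviF_hphi_nonneg hz.2.2.2.2 β) w r c b hr0 hc
    (fun z _ hzr β => hlev z (hcl z hzr) β) (fun z _ hzr => hb z (hcl z hzr)) f hf3 hf4
    (D.θ ν s₀) (D.Int ν s₀) (isChart ν) (fun e _ he => hf2 e he) hf5 3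
  refine ⟨D.unfr ν F', isSection_unfr D hp ν hF' w fun κ B hκ => (hF'I κ B hκ).1, ?_⟩
  intro s y hy hyw G hG
  -- the values of `f` in the chart
  set P : (Fin 2 → ℂ) → ℂ := if s = s₀ then g0 else 0 with hP
  have hPd : Differentiable ℂ P := by
    rw [hP]; split_ifs
    · exact hg0
    · exact differentiable_const _
  have hfP : ∀ x ∈ D.Int ν s, f (D.θ ν s x) * jac (D.co ν) (D.θ ν s) x = P x := by
    intro x hx
    rw [hP]
    by_cases h : s = s₀
    · subst h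
      rw [if_pos rfl]
      exact hf1 x hx
    · rw [if_neg h, hf2, zero_mul, Pi.zero_apply]
      rintro ⟨x', hx', hxx⟩
      exact D.disj ν s₀ s (Ne.symm h) x' hx' x hx hxx
  have hGF : ∀ x ∈ D.Int ν s, G x = F' (D.θ ν s x) * jac (D.co ν) (D.θ ν s) x := by
    intro x hx
    rw [hG.eq x hx, fac_eq ν 4 hx, unfr, co_θ hx]
    have h1 : (fderiv ℂ (D.g ν) (D.pwr ν s x)).det ≠ 0 := det_g_ne (pwr_mem hx)
    have h2 : D.m ν (D.pwr ν s x) ≠ 0 := (D.adm ν).mne _ (pwr_mem hx)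
    field_simp
  have hyG : DifferentiableAt ℂ G y := hG.holo.differentiableAt (isOpen_Of.mem_nhds hy)
  have hv := jet_vanish (D.p_pos ν s) (D.q_pos ν s) hy (g := fun x => G x - P x)
    (hyG.sub (hPd y)) (r := r / 2) (by positivity) (by
      refine lt_of_le_of_lt (le_of_eq ?_) (hF'I (D.θ ν s) (D.Int ν s) (isChart ν)).2
      have hset : D.Int ν s ∩ {x | vz w (D.co ν (D.θ ν s x)) ≤ r / 2} =
          D.Int ν s ∩ {x | vz (D.pwr ν s y) (D.pwr ν s x) ≤ r / 2} := by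
        ext x
        constructor
        · rintro ⟨h1, h2⟩
          exact ⟨h1, by rw [mem_ofPred_eq, co_θ h1] at h2; rw [mem_ofPred_eq, hyw]; exact h2⟩
        · rintro ⟨h1, h2⟩
          exact ⟨h1, by rw [mem_ofPred_eq, hyw] at h2; rw [mem_ofPred_eq, co_θ h1]; exact h2⟩
      rw [hset]
      refine setLIntegral_congr_fun ?_ fun x hx => ?_
      · refine isOpen_Oo.measurableSet.inter ?_
        exact measurableSet_le ((continuous_vz _).comp continuous_pw).measurable measurable_const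
      · show ENNReal.ofReal (‖G x - P x‖ ^ 2 * (vz (D.pwr ν s y) (D.pwr ν s x) ^ 3)⁻¹) = _
        rw [hGF x hx.1, ← hfP x hx.1, ← sub_mul, norm_mul, mul_pow, hyw, co_θ hx.1])
  have e1 : G y = P y := sub_eq_zero.1 hv.1
  have e2 : fderiv ℂ G y = fderiv ℂ P y := by
    have h := hv.2
    rw [fderiv_fun_sub hyG (hPd y)] at h
    exact sub_eq_zero.1 h
  rw [e1, e2, hP]
  constructor
  · rintro rfl rfl
    rw [if_pos rfl]
    exact ⟨hg0a, hg0L⟩
  · intro hne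
    by_cases h : s = s₀
    · subst h
      rw [if_pos rfl]
      refine hg00 y ?_ fun h => hne ⟨rfl, h⟩
      rw [Set.Finite.mem_toFinset]
      exact hyw
    · rw [if_neg h]
      exact ⟨rfl, by simp⟩

/-- The space of sections. -/
def sections (k : ℕ) : Submodule ℂ (X₀ → ℂ) where
  carrier := {F | D.IsSection k F}
  zero_mem' := fun ν s => ⟨0, ⟨differentiableOn_const _, fun x _ => by simp⟩⟩
  add_mem' := by
    intro F F' h h' ν s
    obtain ⟨G, hG⟩ := h ν s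
    obtain ⟨G', hG'⟩ := h' ν s
    exact ⟨G + G', hG.holo.add hG'.holo, fun x hx => by
      rw [Pi.add_apply, Pi.add_apply, hG.eq x hx, hG'.eq x hx]; ring⟩
  smul_mem' := by
    intro c F h ν s
    obtain ⟨G, hG⟩ := h ν s
    exact ⟨c • G, hG.holo.const_smul c, fun x hx => by
      rw [Pi.smul_apply, Pi.smul_apply, hG.eq x hx, smul_eq_mul, smul_eq_mul]; ring⟩

end NodeSys

end Vale.Agent.P300.H266
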