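import Vale.Agent.P300.H266.Loc

/-!
# P300 / PROJ, block JETS: systems of node charts, the space of sections
-/

set_option autoImplicit false

open Set Filter Topology Metric

namespace Vale.Agent.P300.H266

/-- A finite covering `pr : X₀ → V` (coordinates of the base node) with its node charts: for every
node `ν` an admissible change of node `g ν`, and for every piece `s : ι ν` a parametrisation
`θ ν s` of one component of the part of `X₀` over the star `R` of the node `ν`,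
`pr (θ ν s x) = g ν (x₀^p, x₁^q)`. -/
structure NodeSys (X₀ : Type) [TopologicalSpace X₀] (pr : X₀ → Fin 2 → ℂ) where
  Nd : Type
  g : Nd → (Fin 2 → ℂ) → (Fin 2 → ℂ)
  g' : Nd → (Fin 2 → ℂ) → (Fin 2 → ℂ)
  m : Nd → (Fin 2 → ℂ) → ℂ
  adm : ∀ ν, Adm (g ν) (g' ν) (m ν)
  ι : Nd → Type
  p : ∀ ν, ι ν → ℕ
  q : ∀ ν, ι ν → ℕ
  p_pos : ∀ ν s, 0 < p ν s
  q_pos : ∀ ν s, 0 < q ν s
  θ : ∀ ν, ι ν → (Fin 2 → ℂ) → X₀
  cont : ∀ ν s, ContinuousOn (θ ν s) (Oo (p ν s) (q ν s))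
  inj : ∀ ν s, InjOn (θ ν s) (Oo (p ν s) (q ν s))
  pr_θ : ∀ ν s, ∀ x ∈ Oo (p ν s) (q ν s), pr (θ ν s x) = g ν (pw (p ν s) (q ν s) x)
  disj : ∀ ν s s', s ≠ s' → ∀ x ∈ Oo (p ν s) (q ν s), ∀ y ∈ Oo (p ν s') (q ν s'),
    θ ν s x ≠ θ ν s' y
  surj : ∀ ν e, g' ν (pr e) ∈ R → ∃ s, ∃ x ∈ Oo (p ν s) (q ν s), θ ν s x = e

variable {X₀ : Type} [TopologicalSpace X₀] {pr : X₀ → Fin 2 → ℂ} {N : ℕ}

namespace NodeSys

variable (D : NodeSys X₀ pr) (ν : D.Nd) (s : D.ι ν)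

/-- The branched covering of the piece. -/
abbrev pwr : (Fin 2 → ℂ) → (Fin 2 → ℂ) := pw (D.p ν s) (D.q ν s)

/-- The domain of the piece. -/
abbrev Full : Set (Fin 2 → ℂ) := Of (D.p ν s) (D.q ν s)

/-- The interior part of the piece. -/
abbrev Int : Set (Fin 2 → ℂ) := Oo (D.p ν s) (D.q ν s)

/-- The factor between a function on `X₀` and the corresponding section of `K ⊗ L^k` in the frame
of the piece. -/
noncomputable def fac (k : ℕ) (x : Fin 2 → ℂ) : ℂ :=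
  (fderiv ℂ (fun y => D.g ν (D.pwr ν s y)) x).det * D.m ν (D.pwr ν s x) ^ k

/-- `G` is the section given by `F` in the frame of the piece `(ν, s)`. -/
structure Ext (k : ℕ) (F : X₀ → ℂ) (G : (Fin 2 → ℂ) → ℂ) : Prop where
  holo : DifferentiableOn ℂ G (D.Full ν s)
  eq : ∀ x ∈ D.Int ν s, G x = F (D.θ ν s x) * D.fac ν s k x

/-- `F` is a section over the whole compactification. -/
def IsSection (k : ℕ) (F : X₀ → ℂ) : Prop := ∀ ν s, ∃ G, D.Ext ν s k F G

/-- The coordinate of the node `ν`. -/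
def co (e : X₀) : Fin 2 → ℂ := D.g' ν (pr e)

variable {D ν s}

theorem pwr_mem {x : Fin 2 → ℂ} (hx : x ∈ D.Int ν s) : D.pwr ν s x ∈ V := pw_mem_V hx

theorem co_θ {x : Fin 2 → ℂ} (hx : x ∈ D.Int ν s) : D.co ν (D.θ ν s x) = D.pwr ν s x := by
  rw [co, D.pr_θ ν s x hx, (D.adm ν).left _ (pwr_mem hx)]

/-- Each piece is a chart for the coordinates of each node. -/
theorem isChart (ν' : D.Nd) : IsChart (D.co ν') (D.θ ν s) (D.Int ν s) where
  isOpen := isOpen_Oo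
  cont := D.cont ν s
  inj := D.inj ν s
  holo := by
    have h1 : DifferentiableOn ℂ (fun x => D.g' ν' (D.g ν (D.pwr ν s x))) (D.Int ν s) := by
      refine (D.adm ν').diff'.comp ?_ fun x hx => (D.adm ν).maps _ (pwr_mem hx)
      exact (D.adm ν).diff.comp differentiable_pw.differentiableOn fun x hx => pwr_mem hx
    refine h1.congr fun x hx => ?_
    show D.g' ν' (pr (D.θ ν s x)) = _
    rw [D.pr_θ ν s x hx]

theorem isFinCov (hp : IsFinCov pr V N) (ν : D.Nd) : IsFinCov (D.co ν) V N :=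
  hp.change (D.adm ν)

/-- The determinant of a composition. -/
theorem det_comp {a b : (Fin 2 → ℂ) → (Fin 2 → ℂ)} {x : Fin 2 → ℂ}
    (ha : DifferentiableAt ℂ a (b x)) (hb : DifferentiableAt ℂ b x) :
    (fderiv ℂ (fun y => a (b y)) x).det = (fderiv ℂ a (b x)).det * (fderiv ℂ b x).det := by
  have h : fderiv ℂ (fun y => a (b y)) x = (fderiv ℂ a (b x)).comp (fderiv ℂ b x) :=
    fderiv_comp x ha hb
  rw [h]
  exact LinearMap.det_comp _ _

theorem g_diffAt {z : Fin 2 → ℂ} (hz : z ∈ V) : DifferentiableAt ℂ (D.g ν) z :=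
  (D.adm ν).diff.differentiableAt (isOpen_V.mem_nhds hz)

theorem g'_diffAt {z : Fin 2 → ℂ} (hz : z ∈ V) : DifferentiableAt ℂ (D.g' ν) z :=
  (D.adm ν).diff'.differentiableAt (isOpen_V.mem_nhds hz)

theorem det_g_ne {z : Fin 2 → ℂ} (hz : z ∈ V) : (fderiv ℂ (D.g ν) z).det ≠ 0 := by
  intro h
  have h1 := det_comp (a := D.g' ν) (b := D.g ν) (x := z) (g'_diffAt ((D.adm ν).maps z hz))
    (g_diffAt hz)
  have h2 : (fun y => D.g' ν (D.g ν y)) =ᶠ[𝓝 z] id := by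
    filter_upwards [isOpen_V.mem_nhds hz] with y hy using (D.adm ν).left y hy
  rw [h2.fderiv_eq, fderiv_id, h, mul_zero] at h1
  rw [ContinuousLinearMap.det] at h1
  simp at h1

/-- The factor, in terms of the jacobian determinant with respect to the node `ν'`. -/
theorem fac_eq (ν' : D.Nd) (k : ℕ) {x : Fin 2 → ℂ} (hx : x ∈ D.Int ν s) :
    D.fac ν s k x = (fderiv ℂ (D.g ν') (D.co ν' (D.θ ν s x))).det *
      jac (D.co ν') (D.θ ν s) x * D.m ν (D.pwr ν s x) ^ k := by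
  unfold fac jac
  congr 1
  have hc := (isChart (D := D) (ν := ν) (s := s) ν')
  have h1 : (fun y => D.g ν (D.pwr ν s y)) =ᶠ[𝓝 x] fun y => D.g ν' (D.co ν' (D.θ ν s y)) := by
    filter_upwards [hc.isOpen.mem_nhds hx] with y hy
    rw [co, D.pr_θ ν s y hy, (D.adm ν').right _ ((D.adm ν).maps _ (pwr_mem hy))]
  rw [h1.fderiv_eq]
  have hm : D.co ν' (D.θ ν s x) ∈ V := by
    rw [co, D.pr_θ ν s x hx]
    exact (D.adm ν').maps' _ ((D.adm ν).maps _ (pwr_mem hx))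
  exact det_comp (a := D.g ν') (b := fun y => D.co ν' (D.θ ν s y)) (g_diffAt hm)
    (hc.holo.differentiableAt (hc.isOpen.mem_nhds hx))

/-- The comparison of the weights. -/
theorem weight_eq (ν' : D.Nd) (k : ℕ) {x : Fin 2 → ℂ} (hx : x ∈ D.Int ν s) :
    ‖D.m ν (D.pwr ν s x) ^ k‖ ^ 2 = ‖D.m ν' (D.co ν' (D.θ ν s x)) ^ k‖ ^ 2 *
      Real.exp (k * (phi (D.pwr ν s x) - phi (D.co ν' (D.θ ν s x)))) := by
  set w := D.pwr ν s x with hw
  set z := D.co ν' (D.θ ν s x) with hz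
  have hwV : w ∈ V := pwr_mem hx
  have hzV : z ∈ V := by
    rw [hz, co, D.pr_θ ν s x hx]
    exact (D.adm ν').maps' _ ((D.adm ν).maps _ hwV)
  have hgz : D.g ν' z = D.g ν w := by
    rw [hz, co, D.pr_θ ν s x hx, (D.adm ν').right _ ((D.adm ν).maps _ hwV)]
  have h1 := (D.adm ν).wt w hwV
  have h2 := (D.adm ν').wt z hzV
  rw [hgz] at h2
  have h3 : ‖D.m ν w‖ ^ 2 = ‖D.m ν' z‖ ^ 2 * Real.exp (phi w - phi z) := by
    have h4 : Real.exp (phi (D.g ν w)) ≠ 0 := (Real.exp_pos _).ne'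
    apply mul_left_cancel₀ h4
    rw [h1, ← mul_assoc, h2, ← Real.exp_add]
    congr 1
    ring
  rw [norm_pow, norm_pow, ← pow_mul, ← pow_mul, mul_comm k 2, pow_mul, pow_mul, h3, mul_pow,
    ← Real.exp_nat_mul]

end NodeSys

end Vale.Agent.P300.H266
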