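import Vale.Agent.P300.H266.SecSpec

/-!
# P300 / PROJ, block JETS: finite coverings, uniqueness of lifts, change of node
-/

set_option autoImplicit false

open Set Filter Topology

namespace Vale.Agent.P300.H266

section lift

variable {n N : ℕ} {E : Type} [TopologicalSpace E] {p : E → Fin n → ℂ} {V : Set (Fin n → ℂ)}

/-- Two lifts of the same map which agree at a point agree near this point. -/
theorem IsFinCov.lift_eq [T2Space E] (hp : IsFinCov p V N) {A : Type*} [TopologicalSpace A]
    {O : Set A} (hO : IsOpen O) {a b : A → E} (ha : ContinuousOn a O) (hb : ContinuousOn b O)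
    (hab : ∀ y ∈ O, p (a y) = p (b y)) {x : A} (hx : x ∈ O) (hxx : a x = b x) :
    ∀ᶠ y in 𝓝 x, a y = b y := by
  classical
  obtain ⟨W, s, hW, hzW, -, hs, -, hinj, hsurj⟩ := hp.loc (p (a x)) (hp.mem _)
  have hO' : IsOpen (O ∩ (fun y => p (a y)) ⁻¹' W) :=
    (hp.cont.comp_continuousOn ha).isOpen_inter_preimage hO hW
  have key : ∀ c : A → E, ContinuousOn c O → (∀ y ∈ O, p (c y) = p (a y)) → ∀ i : Fin N,
      c x = s i (p (a x)) → ∀ᶠ y in 𝓝 x, c y = s i (p (a y)) := by
    intro c hc hca i hi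
    have h1 : ∀ j : Fin N, j ≠ i → ∀ᶠ y in 𝓝 x, c y ≠ s j (p (a y)) := by
      intro j hj
      have h2 : ContinuousAt c x := hc.continuousAt (hO.mem_nhds hx)
      have h3 : ContinuousAt (fun y => s j (p (a y))) x := by
        have h4 : ContinuousAt (s j) (p (a x)) := (hs j).continuousAt (hW.mem_nhds hzW)
        exact h4.comp (f := fun y => p (a y))
          ((hp.cont.continuousAt).comp (ha.continuousAt (hO.mem_nhds hx)))
      have h6 : c x ≠ s j (p (a x)) := by
        rw [hi]
        exact fun h => hj (hinj _ hzW h).symm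
      exact (h2.ne_iff_eventually_ne h3).1 h6
    have h5 : ∀ᶠ y in 𝓝 x, ∀ j : Fin N, j ≠ i → c y ≠ s j (p (a y)) :=
      eventually_all.2 fun j => by
        by_cases hj : j = i
        · exact Eventually.of_forall fun y h => absurd hj h
        · filter_upwards [h1 j hj] with y hy _ using hy
    filter_upwards [h5, hO'.mem_nhds ⟨hx, hzW⟩] with y hy hyO
    obtain ⟨j, hj⟩ := hsurj (c y) (by rw [hca y hyO.1]; exact hyO.2)
    rw [hca y hyO.1] at hj
    by_cases h : j = i
    · rw [← h, hj]
    · exact absurd hj.symm (hy j h)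
  obtain ⟨i, hi⟩ := hsurj (a x) hzW
  filter_upwards [key a ha (fun _ _ => rfl) i hi.symm,
    key b hb (fun y hy => (hab y hy).symm) i (by rw [← hxx]; exact hi.symm)] with y h1 h2
  rw [h1, h2]

/-- There is a section through every point. -/
theorem IsFinCov.exists_sec (hp : IsFinCov p V N) (e : E) :
    ∃ W s, IsSec p V W s ∧ p e ∈ W ∧ s (p e) = e := by
  obtain ⟨W, s, hW, hz, hWV, hs, hps, -, hsurj⟩ := hp.loc (p e) (hp.mem e)
  obtain ⟨i, hi⟩ := hsurj e hz
  exact ⟨W, s i, ⟨hW, hWV, hs i, fun z hz => hps i z hz⟩, hz, hi⟩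

/-- A holomorphic function in a chart. -/
theorem IsFinCov.holo_chart [T2Space E] (hp : IsFinCov p V N) {F : E → ℂ} (hF : HoloE p V F)
    {κ : (Fin n → ℂ) → E} {B : Set (Fin n → ℂ)} (hκ : IsChart p κ B) :
    DifferentiableOn ℂ (fun x => F (κ x)) B := by
  intro x hx
  obtain ⟨W, s, hs, hz, hse⟩ := hp.exists_sec (κ x)
  have hO : IsOpen (B ∩ (fun y => p (κ y)) ⁻¹' W) :=
    (hp.cont.comp_continuousOn hκ.cont).isOpen_inter_preimage hκ.isOpen hs.isOpen
  have h1 : ∀ᶠ y in 𝓝 x, κ y = s (p (κ y)) := by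
    refine hp.lift_eq hO (hκ.cont.mono inter_subset_left) ?_ ?_ ⟨hx, hz⟩ hse.symm
    · exact hs.cont.comp ((hp.cont.comp_continuousOn hκ.cont).mono inter_subset_left)
        fun y hy => hy.2
    · intro y hy
      rw [hs.sec _ hy.2]
  have h2 : DifferentiableAt ℂ (fun y => F (s (p (κ y)))) x := by
    have h3 : DifferentiableAt ℂ (fun z => F (s z)) (p (κ x)) :=
      (hF W s hs).differentiableAt (hs.isOpen.mem_nhds hz)
    exact h3.comp (f := fun y => p (κ y)) x (hκ.holo.differentiableAt (hκ.isOpen.mem_nhds hx))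
  refine (h2.congr_of_eventuallyEq ?_).differentiableWithinAt
  filter_upwards [h1] with y hy
  rw [← hy]

end lift

section change

variable {N : ℕ} {E : Type} [TopologicalSpace E] {g g' : (Fin 2 → ℂ) → (Fin 2 → ℂ)}
  {m : (Fin 2 → ℂ) → ℂ} {pr : E → Fin 2 → ℂ}

/-- The covering in the coordinates of another node. -/
theorem IsFinCov.change (hp : IsFinCov pr V N) (hg : Adm g g' m) :
    IsFinCov (fun e => g' (pr e)) V N where
  isOpen := isOpen_V
  cont := by
    have h := hg.diff'.continuousOn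
    exact h.comp_continuous hp.cont hp.mem
  mem := fun e => hg.maps' _ (hp.mem e)
  loc := by
    intro z hz
    obtain ⟨W, s, hW, hzW, hWV, hs, hps, hinj, hsurj⟩ := hp.loc (g z) (hg.maps z hz)
    refine ⟨V ∩ g ⁻¹' W, fun i y => s i (g y), hg.diff.continuousOn.isOpen_inter_preimage
      isOpen_V hW, ⟨hz, hzW⟩, inter_subset_left, fun i => ?_, fun i y hy => ?_, fun y hy => ?_,
      fun e he => ?_⟩
    · exact (hs i).comp (hg.diff.continuousOn.mono inter_subset_left) fun y hy => hy.2
    · show g' (pr (s i (g y))) = y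
      rw [hps i _ hy.2, hg.left y hy.1]
    · exact fun i j hij => hinj _ hy.2 hij
    · have h1 : g (g' (pr e)) = pr e := hg.right _ (hp.mem e)
      have h2 : pr e ∈ W := by
        have := he.2
        rwa [mem_preimage, h1] at this
      obtain ⟨i, hi⟩ := hsurj e h2
      exact ⟨i, by show s i (g (g' (pr e))) = e; rw [h1, hi]⟩

theorem IsSec.change (hp : IsFinCov pr V N) (hg : Adm g g' m) {W : Set (Fin 2 → ℂ)}
    {s : (Fin 2 → ℂ) → E} (hs : IsSec (fun e => g' (pr e)) V W s) :
    IsSec pr V (V ∩ g' ⁻¹' W) fun y => s (g' y) where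
  isOpen := hg.diff'.continuousOn.isOpen_inter_preimage isOpen_V hs.isOpen
  sub := inter_subset_left
  cont := hs.cont.comp (hg.diff'.continuousOn.mono inter_subset_left) fun y hy => hy.2
  sec := by
    intro y hy
    have h1 : g' (pr (s (g' y))) = g' y := hs.sec _ hy.2
    have h2 := congrArg g h1
    rwa [hg.right _ (hp.mem _), hg.right _ hy.1] at h2

/-- Holomorphic functions do not depend on the node. -/
theorem HoloE.change (hp : IsFinCov pr V N) (hg : Adm g g' m) {F : E → ℂ}
    (hF : HoloE pr V F) : HoloE (fun e => g' (pr e)) V F := by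
  intro W s hs
  have h1 := hF _ _ (IsSec.change hp hg hs)
  have h2 : DifferentiableOn ℂ (fun z => F (s (g' (g z)))) W := by
    refine h1.comp (hg.diff.mono hs.sub) fun z hz => ⟨hg.maps z (hs.sub hz), ?_⟩
    show g' (g z) ∈ W
    rw [hg.left z (hs.sub hz)]
    exact hz
  refine h2.congr fun z hz => ?_
  rw [hg.left z (hs.sub hz)]

theorem HoloE.change' (hp : IsFinCov pr V N) (hg : Adm g g' m) {F : E → ℂ}
    (hF : HoloE (fun e => g' (pr e)) V F) : HoloE pr V F := by
  have h := HoloE.change (hp.change hg) hg.symm hF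
  intro W s hs
  refine h W s ⟨hs.isOpen, hs.sub, hs.cont, fun z hz => ?_⟩
  show g (g' (pr (s z))) = z
  rw [hs.sec z hz, hg.right z (hs.sub hz)]

end change

end Vale.Agent.P300.H266
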