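import Vale.Agent.P300.H266.Sys
import Vale.Agent.P300.H14.SecL
import Vale.Agent.P300.H327.Null
import Vale.Agent.P300.H113.PhiS
import Vale.Agent.P300.H813.Jet
import Vale.Agent.P271.H408.Ext

/-!
# P300 / PROJ, block JETS: sections with prescribed jets
-/

set_option autoImplicit false

open Set Filter Topology Metric MeasureTheory

open scoped ENNReal

namespace Vale.Agent.P300.H266

variable {X₀ : Type} [TopologicalSpace X₀] {pr : X₀ → Fin 2 → ℂ} {N : ℕ}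

theorem one_add_vz_le (w z : Fin 2 → ℂ) :
    1 + vz w z ≤ (2 + 2 * ∑ j, ‖w j‖ ^ 2) * Real.exp (phi z) := by
  have h1 := le_exp_phi z
  have h2 : vz w z ≤ 2 * ∑ j, ‖z j‖ ^ 2 + 2 * ∑ j, ‖w j‖ ^ 2 := by
    unfold vz
    rw [Finset.mul_sum, Finset.mul_sum, ← Finset.sum_add_distrib]
    refine Finset.sum_le_sum fun j _ => ?_
    have h3 := norm_sub_le (z j) (w j)
    nlinarith [norm_nonneg (z j - w j), norm_nonneg (z j), norm_nonneg (w j),
      sq_nonneg (‖z j‖ - ‖w j‖)]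
  have h4 : (0 : ℝ) ≤ ∑ j, ‖z j‖ ^ 2 := Finset.sum_nonneg fun _ _ => by positivity
  have h5 : (0 : ℝ) ≤ ∑ j, ‖w j‖ ^ 2 := Finset.sum_nonneg fun _ _ => by positivity
  calc 1 + vz w z ≤ (2 + 2 * ∑ j, ‖w j‖ ^ 2) * (1 + ∑ j, ‖z j‖ ^ 2) := by nlinarith
    _ ≤ _ := by gcongr

/-- The comparison of the weights of [SECL] and of the sections. -/
theorem exp_le (w z : Fin 2 → ℂ) : Real.exp (-(4 * phi z)) ≤ (2 + 2 * ∑ j, ‖w j‖ ^ 2) ^ 3 *
    (Real.exp (-phi z) * ((1 + vz w z) ^ 3)⁻¹) := by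
  have h1 := one_add_vz_le w z
  have h0 := vz_nonneg w z
  have h2 : (1 + vz w z) ^ 3 ≤ ((2 + 2 * ∑ j, ‖w j‖ ^ 2) * Real.exp (phi z)) ^ 3 :=
    pow_le_pow_left₀ (by linarith) h1 3
  have h3 : 0 < (1 + vz w z) ^ 3 := by positivity
  have e1 : Real.exp (-(4 * phi z)) = Real.exp (-phi z) * (Real.exp (phi z) ^ 3)⁻¹ := by
    rw [← Real.exp_nat_mul, ← Real.exp_neg, ← Real.exp_add]
    congr 1
    push_cast
    ring
  rw [e1, mul_comm ((2 + 2 * ∑ j, ‖w j‖ ^ 2) ^ 3), mul_assoc]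
  refine mul_le_mul_of_nonneg_left ?_ (Real.exp_pos _).le
  rw [← div_eq_inv_mul, le_div_iff₀ h3, inv_mul_le_iff₀ (by positivity)]
  calc (1 + vz w z) ^ 3 ≤ ((2 + 2 * ∑ j, ‖w j‖ ^ 2) * Real.exp (phi z)) ^ 3 := h2
    _ = _ := by ring

theorem phi_continuousOn : ContinuousOn phi {w | w 0 * w 1 ≠ 1} :=
  (H113.hphi_contDiffOn 0).continuousOn

theorem phi_pw_continuousAt {p q : ℕ} {x : Fin 2 → ℂ} (hx : x ∈ Of p q) :
    ContinuousAt (fun y => phi (pw p q y)) x := by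
  have h1 : IsOpen {w : Fin 2 → ℂ | w 0 * w 1 ≠ 1} :=
    isOpen_compl_singleton.preimage ((continuous_apply 0).mul (continuous_apply 1))
  have h2 : pw p q x ∈ {w : Fin 2 → ℂ | w 0 * w 1 ≠ 1} := (R_sub hx).2.2
  exact (phi_continuousOn.continuousAt (h1.mem_nhds h2)).comp (f := fun y => pw p q y)
    continuous_pw.continuousAt

theorem det_eq (A : (Fin 2 → ℂ) →L[ℂ] (Fin 2 → ℂ)) : A.det =
    A (Pi.single 0 1) 0 * A (Pi.single 1 1) 1 - A (Pi.single 1 1) 0 * A (Pi.single 0 1) 1 := by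
  rw [ContinuousLinearMap.det, ← LinearMap.det_toMatrix', Matrix.det_fin_two]
  simp [LinearMap.toMatrix'_apply]

theorem diff_det {f : (Fin 2 → ℂ) → (Fin 2 → ℂ)} {U : Set (Fin 2 → ℂ)} (hU : IsOpen U)
    (hf : DifferentiableOn ℂ f U) : DifferentiableOn ℂ (fun x => (fderiv ℂ f x).det) U := by
  have h1 : DifferentiableOn ℂ (fderiv ℂ f) U :=
    ((Vale.Agent.P268.analyticOnNhd_of_differentiableOn hU hf).fderiv).differentiableOn
  have h2 : ∀ (v : Fin 2 → ℂ) (i : Fin 2), DifferentiableOn ℂ (fun x => fderiv ℂ f x v i) U := by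
    intro v i
    exact (differentiable_apply i).comp_differentiableOn
      (h1.clm_apply (differentiableOn_const v))
  simp only [det_eq]
  exact ((h2 _ _).mul (h2 _ _)).sub ((h2 _ _).mul (h2 _ _))

namespace NodeSys

variable {D : NodeSys X₀ pr} {ν : D.Nd} {s : D.ι ν}

theorem fac_diff (k : ℕ) : DifferentiableOn ℂ (D.fac ν s k) (D.Int ν s) := by
  have h1 : DifferentiableOn ℂ (fun y => D.g ν (D.pwr ν s y)) (D.Int ν s) :=
    (D.adm ν).diff.comp differentiable_pw.differentiableOn fun x hx => pwr_mem hx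
  have h2 : DifferentiableOn ℂ (fun y => D.m ν (D.pwr ν s y)) (D.Int ν s) :=
    (D.adm ν).mdiff.comp differentiable_pw.differentiableOn fun x hx => pwr_mem hx
  exact (diff_det isOpen_Oo h1).mul (h2.pow k)

theorem co_mem (hp : IsFinCov pr V N) (ν : D.Nd) (e : X₀) : D.co ν e ∈ V :=
  (D.adm ν).maps' _ (hp.mem e)

/-- `L²` sections extend. -/
theorem exists_ext [T2Space X₀] (hp : IsFinCov pr V N) {F : X₀ → ℂ} (hF : HoloE pr V F) (k : ℕ)
    (hL : ∀ y ∈ D.Full ν s, ∃ r > 0,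
      ∫⁻ x in ball y r ∩ D.Int ν s, ‖F (D.θ ν s x) * D.fac ν s k x‖ₑ ^ 2 ≠ ⊤) :
    ∃ G, D.Ext ν s k F G := by
  have hc := isChart (D := D) (ν := ν) (s := s) ν
  have h1 : DifferentiableOn ℂ (fun x => F (D.θ ν s x) * D.fac ν s k x) (D.Int ν s) :=
    ((isFinCov hp ν).holo_chart (hF.change hp (D.adm ν)) hc).mul (fac_diff k)
  have h2 : DifferentiableOn ℂ (fun x : Fin 2 → ℂ => x 0 * x 1) (D.Full ν s) :=
    ((differentiable_apply (0 : Fin 2)).mul (differentiable_apply (1 : Fin 2))).differentiableOn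
  have h3 : ∀ x ∈ D.Full ν s, ∃ᶠ z in 𝓝 x, (fun x : Fin 2 → ℂ => x 0 * x 1) z ≠ 0 := by
    intro x _
    have h3 : Dense {x : Fin 2 → ℂ | x 0 ≠ 0 ∧ x 1 ≠ 0} := Measure.dense_of_ae H327.ae_offAxes
    exact (mem_closure_iff_frequently.1 (h3 x)).mono fun y hy => mul_ne_zero hy.1 hy.2
  have h4 : ∀ y ∈ D.Full ν s, ∃ r > 0, ∫⁻ z in ball y r ∩ {z | (fun x : Fin 2 → ℂ =>
      x 0 * x 1) z ≠ 0}, ‖F (D.θ ν s z) * D.fac ν s k z‖ₑ ^ 2 ≠ ⊤ := by
    intro y hy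
    obtain ⟨r, hr, hI⟩ := hL y hy
    obtain ⟨r', hr', hsub⟩ := Metric.isOpen_iff.1 (isOpen_Of (p := D.p ν s) (q := D.q ν s)) y hy
    refine ⟨min r r', lt_min hr hr', ne_top_of_le_ne_top hI (lintegral_mono_set ?_)⟩
    intro x hx
    exact ⟨ball_subset_ball (min_le_left _ _) hx.1,
      hsub (ball_subset_ball (min_le_right _ _) hx.1), hx.2⟩
  obtain ⟨G, hG, hGe⟩ := Vale.Agent.P271.H408.ext_L2 (U := D.Full ν s) isOpen_Of h2 h3 h1 h4
  exact ⟨G, hG, fun x hx => hGe x hx.1 hx.2⟩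

end NodeSys

end Vale.Agent.P300.H266
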