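import Vale.Agent.P300.H266.Cov

/-!
# P300 / PROJ, block JETS: the branched covering `(r, t) ↦ (r^p, t^q)`
-/

set_option autoImplicit false

open Set Filter Topology Metric

namespace Vale.Agent.P300.H266

/-- The domain of a piece. -/
def Of (p q : ℕ) : Set (Fin 2 → ℂ) := {x | pw p q x ∈ R}

/-- The interior part of a piece. -/
def Oo (p q : ℕ) : Set (Fin 2 → ℂ) := {x | pw p q x ∈ R ∧ x 0 * x 1 ≠ 0}

variable {p q : ℕ}

@[simp] theorem pw_zero (x : Fin 2 → ℂ) : pw p q x 0 = x 0 ^ p := rfl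
@[simp] theorem pw_one (x : Fin 2 → ℂ) : pw p q x 1 = x 1 ^ q := rfl

theorem continuous_pw : Continuous (pw p q) := by
  refine continuous_pi fun i => ?_
  fin_cases i
  · exact (continuous_apply 0).pow p
  · exact (continuous_apply 1).pow q

theorem differentiable_pw : Differentiable ℂ (pw p q) := by
  refine differentiable_pi.2 fun i => ?_
  fin_cases i
  · exact (differentiable_apply (𝕜 := ℂ) (0 : Fin 2)).pow p
  · exact (differentiable_apply (𝕜 := ℂ) (1 : Fin 2)).pow q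

theorem isOpen_Of : IsOpen (Of p q) := isOpen_R.preimage continuous_pw

theorem isOpen_ne : IsOpen {x : Fin 2 → ℂ | x 0 * x 1 ≠ 0} :=
  isOpen_compl_singleton.preimage ((continuous_apply 0).mul (continuous_apply 1))

theorem Oo_eq : Oo p q = Of p q ∩ {x | x 0 * x 1 ≠ 0} := rfl

theorem isOpen_Oo : IsOpen (Oo p q) := isOpen_Of.inter isOpen_ne

theorem Oo_sub : Oo p q ⊆ Of p q := fun _ h => h.1

theorem pw_mem_V {x : Fin 2 → ℂ} (hx : x ∈ Oo p q) : pw p q x ∈ V := by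
  rw [V_eq]
  refine ⟨R_sub hx.1, ?_⟩
  have h := hx.2
  rw [mul_ne_zero_iff] at h
  show pw p q x 0 * pw p q x 1 ≠ 0
  rw [pw_zero, pw_one]
  exact mul_ne_zero (pow_ne_zero _ h.1) (pow_ne_zero _ h.2)

/-- The derivative of `pw`. -/
theorem hasFDerivAt_pw (x : Fin 2 → ℂ) : HasFDerivAt (pw p q)
    (ContinuousLinearMap.pi (fun i : Fin 2 => (![p * x 0 ^ (p - 1), q * x 1 ^ (q - 1)] i : ℂ) •
      (ContinuousLinearMap.proj i : (Fin 2 → ℂ) →L[ℂ] ℂ))) x := by
  refine hasFDerivAt_pi.2 fun i => ?_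
  have h0 : ∀ i : Fin 2, HasFDerivAt (fun x : Fin 2 → ℂ => x i)
      (ContinuousLinearMap.proj i : (Fin 2 → ℂ) →L[ℂ] ℂ) x := fun i =>
    (ContinuousLinearMap.proj i : (Fin 2 → ℂ) →L[ℂ] ℂ).hasFDerivAt
  fin_cases i
  · have h := (hasDerivAt_pow p (x 0)).comp_hasFDerivAt x (h0 0)
    exact h
  · have h := (hasDerivAt_pow q (x 1)).comp_hasFDerivAt x (h0 1)
    exact h

theorem det_diag (a b : ℂ) : (ContinuousLinearMap.pi (fun i : Fin 2 => (![a, b] i : ℂ) •
      (ContinuousLinearMap.proj i : (Fin 2 → ℂ) →L[ℂ] ℂ))).det = a * b := by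
  rw [ContinuousLinearMap.det, ← LinearMap.det_toMatrix', Matrix.det_fin_two]
  simp [LinearMap.toMatrix'_apply]

theorem det_pw (x : Fin 2 → ℂ) :
    (fderiv ℂ (pw p q) x).det = (p * x 0 ^ (p - 1)) * (q * x 1 ^ (q - 1)) := by
  rw [(hasFDerivAt_pw x).fderiv, det_diag]

theorem det_pw_ne (hp : 0 < p) (hq : 0 < q) {x : Fin 2 → ℂ} (hx : x 0 * x 1 ≠ 0) :
    (fderiv ℂ (pw p q) x).det ≠ 0 := by
  rw [mul_ne_zero_iff] at hx
  rw [det_pw]
  have h1 : (p : ℂ) ≠ 0 := Nat.cast_ne_zero.2 hp.ne'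
  have h2 : (q : ℂ) ≠ 0 := Nat.cast_ne_zero.2 hq.ne'
  exact mul_ne_zero (mul_ne_zero h1 (pow_ne_zero _ hx.1)) (mul_ne_zero h2 (pow_ne_zero _ hx.2))

/-- The holomorphic local inverse of `t ↦ t^p` through `a ≠ 0`. -/
noncomputable def rootAt (p : ℕ) (a z : ℂ) : ℂ := a * Complex.exp (Complex.log (z / a ^ p) / p)

theorem rootAt_self (p : ℕ) {a : ℂ} (ha : a ≠ 0) : rootAt p a (a ^ p) = a := by
  rw [rootAt, div_self (pow_ne_zero _ ha)]
  simp

theorem rootAt_pow (hp : 0 < p) {a z : ℂ} (ha : a ≠ 0) (hz : z ≠ 0) : rootAt p a z ^ p = z := by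
  have h1 : (p : ℂ) ≠ 0 := Nat.cast_ne_zero.2 hp.ne'
  have h2 : a ^ p ≠ 0 := pow_ne_zero _ ha
  rw [rootAt, mul_pow, ← Complex.exp_nat_mul, mul_div_cancel₀ _ h1,
    Complex.exp_log (div_ne_zero hz h2), mul_div_cancel₀ _ h2]

theorem rootAt_diff (p : ℕ) {a : ℂ} (ha : a ≠ 0) :
    ∀ᶠ z in 𝓝 (a ^ p), DifferentiableAt ℂ (rootAt p a) z := by
  have h2 : a ^ p ≠ 0 := pow_ne_zero _ ha
  have h1 : ∀ᶠ z in 𝓝 (a ^ p), z / a ^ p ∈ Complex.slitPlane := by
    have h3 : ContinuousAt (fun z : ℂ => z / a ^ p) (a ^ p) := continuousAt_id.div_const _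
    refine h3.eventually (Complex.isOpen_slitPlane.mem_nhds ?_)
    show a ^ p / a ^ p ∈ Complex.slitPlane
    rw [div_self h2]
    exact Complex.one_mem_slitPlane
  filter_upwards [h1] with z hz
  have h4 : DifferentiableAt ℂ (fun z : ℂ => z / a ^ p) z := differentiableAt_id.div_const _
  exact (((h4.clog hz).div_const _).cexp).const_mul a

/-- The holomorphic local inverse of `pw` through `x`. -/
theorem exists_inv (hp : 0 < p) (hq : 0 < q) {x : Fin 2 → ℂ} (hx : x 0 * x 1 ≠ 0) :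
    ∃ (l : (Fin 2 → ℂ) → (Fin 2 → ℂ)) (W : Set (Fin 2 → ℂ)), IsOpen W ∧ pw p q x ∈ W ∧
      DifferentiableOn ℂ l W ∧ l (pw p q x) = x ∧ ∀ z ∈ W, pw p q (l z) = z := by
  rw [mul_ne_zero_iff] at hx
  set l : (Fin 2 → ℂ) → (Fin 2 → ℂ) := fun z => ![rootAt p (x 0) (z 0), rootAt q (x 1) (z 1)]
    with hl
  have h0 : ∀ᶠ z : Fin 2 → ℂ in 𝓝 (pw p q x), DifferentiableAt ℂ (rootAt p (x 0)) (z 0) ∧
      z 0 ≠ 0 := by
    have h1 : Tendsto (fun z : Fin 2 → ℂ => z 0) (𝓝 (pw p q x)) (𝓝 (x 0 ^ p)) :=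
      (continuous_apply (0 : Fin 2)).tendsto (pw p q x)
    exact (h1.eventually (rootAt_diff p hx.1)).and
      (h1.eventually (isOpen_compl_singleton.mem_nhds (pow_ne_zero _ hx.1)))
  have h1 : ∀ᶠ z : Fin 2 → ℂ in 𝓝 (pw p q x), DifferentiableAt ℂ (rootAt q (x 1)) (z 1) ∧
      z 1 ≠ 0 := by
    have h1 : Tendsto (fun z : Fin 2 → ℂ => z 1) (𝓝 (pw p q x)) (𝓝 (x 1 ^ q)) :=
      (continuous_apply (1 : Fin 2)).tendsto (pw p q x)
    exact (h1.eventually (rootAt_diff q hx.2)).and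
      (h1.eventually (isOpen_compl_singleton.mem_nhds (pow_ne_zero _ hx.2)))
  obtain ⟨W, hW, hWo, hxW⟩ := _root_.mem_nhds_iff.1 (h0.and h1)
  refine ⟨l, W, hWo, hxW, ?_, ?_, ?_⟩
  · refine differentiableOn_pi.2 fun i => ?_
    fin_cases i
    · intro z hz
      exact ((hW hz).1.1.comp z (differentiableAt_apply (𝕜 := ℂ) (0 : Fin 2) z)).differentiableWithinAt
    · intro z hz
      exact ((hW hz).2.1.comp z (differentiableAt_apply (𝕜 := ℂ) (1 : Fin 2) z)).differentiableWithinAt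
  · funext i
    fin_cases i
    · exact rootAt_self p hx.1
    · exact rootAt_self q hx.2
  · intro z hz
    funext i
    fin_cases i
    · exact rootAt_pow hp hx.1 (hW hz).1.2
    · exact rootAt_pow hq hx.2 (hW hz).2.2

theorem finite_roots (hp : 0 < p) (a : ℂ) : {t : ℂ | t ^ p = a}.Finite := by
  have h : {t : ℂ | t ^ p = a} ⊆ ((Polynomial.nthRoots p a).toFinset : Set ℂ) := by
    intro t ht
    simp only [Finset.mem_coe, Multiset.mem_toFinset]
    exact (Polynomial.mem_nthRoots hp).2 ht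
  exact (Finset.finite_toSet _).subset h

theorem finite_fiber (hp : 0 < p) (hq : 0 < q) (w : Fin 2 → ℂ) :
    {x | pw p q x = w}.Finite := by
  have h : {x | pw p q x = w} ⊆ Set.pi Set.univ (fun i : Fin 2 =>
      (![{t : ℂ | t ^ p = w 0}, {t : ℂ | t ^ q = w 1}] i : Set ℂ)) := by
    intro x hx i _
    fin_cases i
    · exact congrFun hx 0
    · exact congrFun hx 1
  refine (Set.Finite.pi' fun i => ?_).subset (fun x hx i => h hx i (mem_univ i))
  fin_cases i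
  · exact finite_roots hp _
  · exact finite_roots hq _

/-- `x` is isolated in its fibre. -/
theorem isolated (hp : 0 < p) (hq : 0 < q) (x : Fin 2 → ℂ) :
    ∀ᶠ y in 𝓝 x, pw p q y = pw p q x → y = x := by
  have h1 : ({y | pw p q y = pw p q x} \ {x}).Finite := (finite_fiber hp hq _).subset sdiff_subset
  have h2 : x ∈ ({y | pw p q y = pw p q x} \ {x})ᶜ := fun h => h.2 rfl
  filter_upwards [h1.isClosed.isOpen_compl.mem_nhds h2] with y hy hyx
  by_contra h
  exact hy ⟨hyx, h⟩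

theorem vz_nonneg {n : ℕ} (w z : Fin n → ℂ) : 0 ≤ vz w z :=
  Finset.sum_nonneg fun _ _ => by positivity

theorem vz_pos {n : ℕ} {w z : Fin n → ℂ} (h : z ≠ w) : 0 < vz w z := by
  obtain ⟨j, hj⟩ := Function.ne_iff.1 h
  refine lt_of_lt_of_le ?_ (Finset.single_le_sum (f := fun j => ‖z j - w j‖ ^ 2)
    (fun _ _ => by positivity) (Finset.mem_univ j))
  have := norm_pos_iff.2 (sub_ne_zero.2 hj)
  positivity

theorem vz_self {n : ℕ} (w : Fin n → ℂ) : vz w w = 0 := by simp [vz]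

theorem continuous_vz {n : ℕ} (w : Fin n → ℂ) : Continuous (vz w) :=
  continuous_finsetSum _ fun j _ => (((continuous_apply j).sub continuous_const).norm).pow 2

theorem vz_le {n : ℕ} (w z : Fin n → ℂ) : vz w z ≤ n * ‖z - w‖ ^ 2 := by
  unfold vz
  refine (Finset.sum_le_card_nsmul _ _ (‖z - w‖ ^ 2) fun j _ => ?_).trans_eq (by simp)
  have h : ‖z j - w j‖ ≤ ‖z - w‖ := norm_le_pi_norm (z - w) j
  exact pow_le_pow_left₀ (norm_nonneg _) h 2

theorem norm_le_vz {n : ℕ} (w z : Fin n → ℂ) : ‖z - w‖ ^ 2 ≤ vz w z := by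
  rcases Nat.eq_zero_or_pos n with hn | hn
  · subst hn
    have : z - w = 0 := Subsingleton.elim _ _
    simp [this, vz]
  · have : Nonempty (Fin n) := ⟨⟨0, hn⟩⟩
    have h1 : ‖z - w‖ ≤ Real.sqrt (vz w z) := by
      refine (pi_norm_le_iff_of_nonneg (Real.sqrt_nonneg _)).2 fun j => ?_
      refine Real.le_sqrt_of_sq_le ?_
      exact Finset.single_le_sum (f := fun j => ‖z j - w j‖ ^ 2) (fun _ _ => by positivity)
        (Finset.mem_univ j)
    calc ‖z - w‖ ^ 2 ≤ Real.sqrt (vz w z) ^ 2 := pow_le_pow_left₀ (norm_nonneg _) h1 2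
      _ = vz w z := Real.sq_sqrt (vz_nonneg w z)

/-- The local constants at a point of a piece. -/
theorem exists_rho (hp : 0 < p) (hq : 0 < q) {x : Fin 2 → ℂ} (hx : x ∈ Of p q) :
    ∃ ρ δ : ℝ, 0 < ρ ∧ 0 < δ ∧ closedBall x ρ ⊆ Of p q ∧
      ∀ y ∈ closedBall x ρ, vz (pw p q x) (pw p q y) < δ → y ∈ ball x ρ := by
  have h1 : ∀ᶠ y in 𝓝 x, y ∈ Of p q ∧ (pw p q y = pw p q x → y = x) := by
    filter_upwards [isOpen_Of.mem_nhds hx, isolated hp hq x] with y h1 h2 using ⟨h1, h2⟩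
  obtain ⟨ρ, hρ, h2⟩ := Metric.nhds_basis_closedBall.eventually_iff.1 h1
  have hc : IsCompact (sphere x ρ) := isCompact_sphere x ρ
  have hcont : ContinuousOn (fun y => vz (pw p q x) (pw p q y)) (sphere x ρ) :=
    ((continuous_vz _).comp continuous_pw).continuousOn
  rcases (sphere x ρ).eq_empty_or_nonempty with he | hne
  · refine ⟨ρ, 1, hρ, one_pos, fun y hy => (h2 hy).1, fun y hy _ => ?_⟩
    rw [mem_ball]
    rcases lt_or_eq_of_le (mem_closedBall.1 hy) with h | h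
    · exact h
    · exact absurd (show y ∈ sphere x ρ from h) (by rw [he]; exact fun h => h)
  · obtain ⟨y0, hy0, hmin⟩ := hc.exists_isMinOn hne hcont
    refine ⟨ρ, vz (pw p q x) (pw p q y0), hρ, vz_pos fun h => ?_, fun y hy => (h2 hy).1,
      fun y hy hlt => ?_⟩
    · have h3 := (h2 (sphere_subset_closedBall hy0)).2 h
      rw [h3, mem_sphere, dist_self] at hy0
      exact hρ.ne hy0
    · rcases lt_or_eq_of_le (mem_closedBall.1 hy) with h | h
      · exact h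
      · exact absurd (hmin (show y ∈ sphere x ρ from h)) (not_le.2 hlt)

end Vale.Agent.P300.H266
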